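import Vale.Agent.P210.R2.H973.SLoc
import Vale.Agent.P210.R2.H973.Mf1
import Vale.Agent.P210.R2.H53.TSpec

/-!
# The scalar curvature through `n - 1` gradients, with a function as lower bound
-/

open scoped Manifold ContDiff Topology Bundle
open Set Metric Filter Bundle IsManifold MeasureTheory Manifold

set_option maxSynthPendingDepth 3
set_option linter.unusedSectionVars false

noncomputable section

namespace Vale.Agent.P210.R2.H973

open Vale.Agent.P210.R2.H53
open Vale.Agent.P210.R2.H755 (contMDiff_Gam contMDiff_Lap Gam_chart Lap_chart HS_chart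
  contDiffOn_chart comp_chart_eq mem_chartAt_atlas bochner_ric)

variable {E : Type} [NormedAddCommGroup E] [NormedSpace ℝ E] [FiniteDimensional ℝ E]
  {M : Type} [MetricSpace M] [ChartedSpace E M]
  [RiemannianBundle (fun x : M => TangentSpace 𝓘(ℝ, E) x)]
  [IsManifold 𝓘(ℝ, E) ∞ M]
  [IsContMDiffRiemannianBundle 𝓘(ℝ, E) ∞ E (fun x : M => TangentSpace 𝓘(ℝ, E) x)]

section pc

variable {m : ℕ}

theorem pcS (hm : Module.finrank ℝ E = m + 1) {K : ℝ} (hK : 0 ≤ K) (hric : RicGE E M (-K))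
    {S : M → ℝ} (hscal : ScalGEf E M S) {u : Fin m → M → ℝ} (hu : ∀ i, ContMDiff 𝓘(ℝ, E) 𝓘(ℝ, ℝ) ∞ (u i))
    {C : ℝ} (hP : ∀ j X, (∀ i j, |X i j| ≤ 4) → |cP (m := m) j X| ≤ C)
    (hRC : ∀ i l j k X, (∀ i j, |X i j| ≤ 4) → |cR (m := m) i l j k X| ≤ C)
    {p : M} (h4 : ∀ i j, |Gr E u p i j| ≤ 4) :
    (Matrix.of (Gr E u p)).det ^ 2 * S p ≤
      ∑ j, cP j (Gr E u p) * ((1 / 2) * Lap E (Gam E (u j) (u j)) p -
        Gam E (u j) (Lap E (u j)) p) +
      ∑ i, ∑ l, ∑ j, ∑ k, cR i l j k (Gr E u p) *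
        (Gam E (u i) (HH E (u l) (u j) (u k)) p - Gam E (u j) (HH E (u l) (u i) (u k)) p) +
      (C + 16 * m ^ 4 * C) * SS E u p + 4 * m * C * K := by
  set e := chartAt E p with hedef
  have he : e ∈ maximalAtlas 𝓘(ℝ, E) ∞ M := mem_chartAt_atlas p
  have hp : p ∈ e.source := mem_chart_source E p
  have hz : e p ∈ e.target := mem_chart_target E p
  have hR := localRiem_chartG he
  set φ : Fin m → E → ℝ := fun i => u i ∘ e.symm with hφ
  have hφs : ∀ i, ContDiffOn ℝ ∞ (φ i) e.target := fun i => contDiffOn_chart he (hu i)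
  have h1 : ∀ v, -K * chartG e (e p) v v ≤ ric (chartG e) (e p) v := by
    intro v
    obtain ⟨Γ, hΓ, hsec⟩ := hric e he (e p) hz
    obtain ⟨b, hb⟩ := exists_onb (chartG e (e p)) (hR.symm _ hz) (hR.pos _ hz)
    have h3 := hsec b hb v
    rw [← ric_eq hb]
    refine h3.trans_eq ?_
    exact Finset.sum_congr rfl fun i _ => sectNum_eq he hz hΓ _ _
  have h2 : ∀ b : Module.Basis (Fin (Module.finrank ℝ E)) ℝ E, ONB (chartG e (e p)) b →
      S p ≤ ∑ i, ∑ j, secG (chartG e) (e p) (b i) (b j) := by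
    intro b hb
    obtain ⟨Γ, hΓ, h⟩ := hscal e he (e p) hz
    have := h b hb
    rw [e.left_inv hp] at this
    simp only [sectNum_eq he hz hΓ] at this
    exact this
  set s := √(SS E u p) with hs
  have hs0 : 0 ≤ s := Real.sqrt_nonneg _
  have hs2 : s ^ 2 = SS E u p := Real.sq_sqrt (SS_nonneg hu p)
  have hsi : ∀ i, hsG (chartG e) 0 (φ i) (e p) ≤ s ^ 2 := fun i => HS_le_SS hu p i
  have hG : ∀ i j, chartG e (e p) (gradG (chartG e) (φ i) (e p))
      (gradG (chartG e) (φ j) (e p)) = Gr E u p i j := by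
    intro i j
    rw [← gam_eq hR hz]; rfl
  have hG4 : ∀ i, chartG e (e p) (gradG (chartG e) (φ i) (e p))
      (gradG (chartG e) (φ i) (e p)) ≤ 2 ^ 2 := by
    intro i
    rw [hG]
    have := (abs_le.1 (h4 i i)).2
    linarith only [this]
  have hC0 : 0 ≤ C ∨ m = 0 := by
    rcases Nat.eq_zero_or_pos m with h | h
    · exact Or.inr h
    · exact Or.inl ((abs_nonneg _).trans (hP ⟨0, h⟩ _ h4))
  have h3 := loc_pcS hm hR hz hK h1 h2 (fun i => gradG (chartG e) (φ i) (e p))
    (Matrix.of (Gr E u p)) (by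
      ext i j
      exact (hG i j).symm)
  refine h3.trans ?_
  -- Ricci terms
  have h5 : 2 * m * (Matrix.of (Gr E u p)).det * ∑ j, (Matrix.of (Gr E u p)).adjugate j j *
      (ric (chartG e) (e p) (gradG (chartG e) (φ j) (e p)) + K * chartG e (e p)
        (gradG (chartG e) (φ j) (e p)) (gradG (chartG e) (φ j) (e p))) ≤
      ∑ j, cP j (Gr E u p) * ((1 / 2) * Lap E (Gam E (u j) (u j)) p -
        Gam E (u j) (Lap E (u j)) p) + (C * SS E u p + 4 * m * C * K) := by
    have h6 : ∀ j, 2 * m * (Matrix.of (Gr E u p)).det * ((Matrix.of (Gr E u p)).adjugate j j *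
      (ric (chartG e) (e p) (gradG (chartG e) (φ j) (e p)) + K * chartG e (e p)
        (gradG (chartG e) (φ j) (e p)) (gradG (chartG e) (φ j) (e p)))) ≤
        cP j (Gr E u p) * ((1 / 2) * Lap E (Gam E (u j) (u j)) p -
        Gam E (u j) (Lap E (u j)) p) + (C * HS E 0 (u j) p + 4 * C * K) := by
      intro j
      rw [bochner_ric (hu j) he hp, hG]
      have h7 := abs_le.1 (hP j _ h4)
      have h8 := HS_nonneg (hu j) p
      have h9 : |cP j (Gr E u p) * Gr E u p j j| ≤ C * 4 := by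
        rw [abs_mul]
        exact mul_le_mul (hP j _ h4) (h4 j j) (abs_nonneg _)
          ((abs_nonneg _).trans (hP j _ h4))
      have h10 := abs_le.1 h9
      have h11 : 0 ≤ (C + cP j (Gr E u p)) * HS E 0 (u j) p :=
        mul_nonneg (by linarith only [h7.1]) h8
      have h12 : 0 ≤ K * (C * 4 - cP j (Gr E u p) * Gr E u p j j) :=
        mul_nonneg hK (by linarith only [h10.2])
      have h13 : 2 * m * (Matrix.of (Gr E u p)).det * ((Matrix.of (Gr E u p)).adjugate j j *
          (1 / 2 * Lap E (Gam E (u j) (u j)) p - Gam E (u j) (Lap E (u j)) p - HS E 0 (u j) p +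
            K * Gr E u p j j)) = cP j (Gr E u p) *
          (1 / 2 * Lap E (Gam E (u j) (u j)) p - Gam E (u j) (Lap E (u j)) p - HS E 0 (u j) p +
            K * Gr E u p j j) := by
        rw [cP]; ring
      rw [h13]
      linarith only [h11, h12]
    rw [Finset.mul_sum]
    refine (Finset.sum_le_sum fun j _ => h6 j).trans_eq ?_
    rw [Finset.sum_add_distrib, Finset.sum_add_distrib, ← Finset.mul_sum, SS]
    simp only [Finset.sum_const, Finset.card_univ, Fintype.card_fin, nsmul_eq_mul]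
    ring
  -- curvature terms
  have h6 : ∀ i l j k, -((Matrix.of (Gr E u p)).adjugate i l *
      (Matrix.of (Gr E u p)).adjugate j k * Rm (chartG e) (e p)
        (gradG (chartG e) (φ i) (e p)) (gradG (chartG e) (φ j) (e p))
        (gradG (chartG e) (φ k) (e p)) (gradG (chartG e) (φ l) (e p))) ≤
      cR i l j k (Gr E u p) *
        (Gam E (u i) (HH E (u l) (u j) (u k)) p - Gam E (u j) (HH E (u l) (u i) (u k)) p) +
      16 * C * SS E u p := by
    intro i l j k
    have h7 := comm_HF hR hz (hφs l) (hφs i) (hφs j) (hφs k)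
    have h8 : Gam E (u i) (HH E (u l) (u j) (u k)) p =
        fderiv ℝ (HF (chartG e) (φ l) (φ j) (φ k)) (e p) (gradG (chartG e) (φ i) (e p)) :=
      Gam_HH (hu l) (hu j) (hu k) p
    have h9 : Gam E (u j) (HH E (u l) (u i) (u k)) p =
        fderiv ℝ (HF (chartG e) (φ l) (φ i) (φ k)) (e p) (gradG (chartG e) (φ j) (e p)) :=
      Gam_HH (hu l) (hu i) (hu k) p
    rw [← h8, ← h9] at h7
    have b1 := hess_abs hR hz (hφs l) (hsi l) (op_sq hR hz (hφs j) (hsi j) (hG4 i)) (hG4 k)
      hs0 (by positivity) (by norm_num)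
    have b2 := hess_abs hR hz (hφs l) (hsi l) (hG4 j) (op_sq hR hz (hφs k) (hsi k) (hG4 i))
      hs0 (by norm_num) (by positivity)
    have b3 := hess_abs hR hz (hφs l) (hsi l) (op_sq hR hz (hφs i) (hsi i) (hG4 j)) (hG4 k)
      hs0 (by positivity) (by norm_num)
    have b4 := hess_abs hR hz (hφs l) (hsi l) (hG4 i) (op_sq hR hz (hφs k) (hsi k) (hG4 j))
      hs0 (by norm_num) (by positivity)
    have b1' := abs_le.1 b1
    have b2' := abs_le.1 b2
    have b3' := abs_le.1 b3
    have b4' := abs_le.1 b4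
    set D := Gam E (u i) (HH E (u l) (u j) (u k)) p - Gam E (u j) (HH E (u l) (u i) (u k)) p
      with hDdef
    set R := Rm (chartG e) (e p)
        (gradG (chartG e) (φ i) (e p)) (gradG (chartG e) (φ j) (e p))
        (gradG (chartG e) (φ k) (e p)) (gradG (chartG e) (φ l) (e p)) with hRdef
    have h10 : |(-R) - D| ≤ 16 * SS E u p := by
      rw [← hs2, abs_le]
      constructor
      · linarith only [h7, b1'.1, b2'.1, b3'.1, b4'.1, b1'.2, b2'.2, b3'.2, b4'.2]
      · linarith only [h7, b1'.1, b2'.1, b3'.1, b4'.1, b1'.2, b2'.2, b3'.2, b4'.2]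
    have h11 : |cR i l j k (Gr E u p) * ((-R) - D)| ≤ C * (16 * SS E u p) := by
      rw [abs_mul]
      exact mul_le_mul (hRC i l j k _ h4) h10 (abs_nonneg _)
        ((abs_nonneg _).trans (hRC i l j k _ h4))
    have h12 := (abs_le.1 h11).2
    have h13 : -((Matrix.of (Gr E u p)).adjugate i l * (Matrix.of (Gr E u p)).adjugate j k * R)
        = cR i l j k (Gr E u p) * (-R) := by rw [cR]; ring
    rw [h13]
    linarith only [h12]
  have h7 : -(∑ i, ∑ l, ∑ j, ∑ k, (Matrix.of (Gr E u p)).adjugate i l *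
      (Matrix.of (Gr E u p)).adjugate j k * Rm (chartG e) (e p)
        (gradG (chartG e) (φ i) (e p)) (gradG (chartG e) (φ j) (e p))
        (gradG (chartG e) (φ k) (e p)) (gradG (chartG e) (φ l) (e p))) ≤
      ∑ i, ∑ l, ∑ j, ∑ k, cR i l j k (Gr E u p) *
        (Gam E (u i) (HH E (u l) (u j) (u k)) p - Gam E (u j) (HH E (u l) (u i) (u k)) p) +
      16 * m ^ 4 * C * SS E u p := by
    simp only [← Finset.sum_neg_distrib]
    refine (Finset.sum_le_sum fun i _ => Finset.sum_le_sum fun l _ =>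
      Finset.sum_le_sum fun j _ => Finset.sum_le_sum fun k _ => h6 i l j k).trans_eq ?_
    simp only [Finset.sum_add_distrib, Finset.sum_const, Finset.card_univ, Fintype.card_fin,
      nsmul_eq_mul]
    ring
  linarith only [h5, h7]

end pc

end Vale.Agent.P210.R2.H973
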